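import Vale.Agent.P157.Full.Conc.Main

/-!
The free energy over truncated cascades with slots concentrates, for every random energy whose
free energy over fixed weights concentrates.
-/

noncomputable section

open MeasureTheory ProbabilityTheory Filter
open scoped BigOperators

namespace Vale.Agent.P166.Haar2.SlotDev

open Vale.Agent.P157.Parisi.Full Vale.Agent.P157.Parisi.Full.Conc
open Vale.Agent.P157.Parisi.Sphere (Pts Conf)
open Vale.Agent.P168 (CascTree cascLaw cascSum cascMean cascFilter genNested)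
open Vale.Agent.P168.Cascade
open Vale.Agent.P168.Limit (logZ gav)
open Vale.Agent.P168.Limit.SelfAvg (abs_logZ_sub_le' gav_le_logZ_sub')

variable {r N T : ℕ} {P : Pts N} {X : Type} {δ a : ℝ} {m : Fin r → ℝ} {n : Fin r → ℕ}
  {H : X → Conf P → ℝ} {c : X → ℝ}

/-- The weights of the slots, summed over the configurations. -/
def gY (H : X → Conf P → ℝ) (δ a : ℝ) (ks : Fin T → Fin (r + 1))
    (z : X × (Fin T → Fin N → ℝ)) (η : Fin r → Fin T → Fin N → ℝ) : ℝ :=
  ∑ σ, slotW δ a ks (H z.1) z.2 σ η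

/-- The log-partition function over a truncated cascade with slots. -/
def gPsi (H : X → Conf P → ℝ) (δ a : ℝ) (m : Fin r → ℝ) (ks : Fin T → Fin (r + 1))
    (n : Fin r → ℕ) (d : X) (ω : (Fin T → Fin N → ℝ) × CascTree (Fin T → Fin N → ℝ) r n) : ℝ :=
  logZ fun σ => Real.log (truncV δ a m ks n ω σ) + H d σ

lemma measurable_gY [MeasurableSpace X] (hH : ∀ σ, Measurable fun d => H d σ) (δ a : ℝ)
    (ks : Fin T → Fin (r + 1)) : Measurable (Function.uncurry (gY H δ a ks)) := by
  have hz : Measurable fun w : (X × (Fin T → Fin N → ℝ)) × (Fin r → Fin T → Fin N → ℝ) => w.1.1 :=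
    measurable_fst.comp measurable_fst
  have hE : Measurable fun w : (X × (Fin T → Fin N → ℝ)) × (Fin r → Fin T → Fin N → ℝ) =>
      (w.1.2, w.2) := (measurable_snd.comp measurable_fst).prodMk measurable_snd
  have hterm : ∀ σ : Conf P, Measurable
      fun w : (X × (Fin T → Fin N → ℝ)) × (Fin r → Fin T → Fin N → ℝ) =>
        Real.exp (H w.1.1 σ + slotX δ a ks w.1.2 σ w.2) / P.K := fun σ =>
    (((hH σ).comp hz).add ((measurable_slotX δ a ks σ).comp hE)).exp.div_const _
  show Measurable fun w : (X × (Fin T → Fin N → ℝ)) × (Fin r → Fin T → Fin N → ℝ) =>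
    ∑ σ : Conf P, Real.exp (H w.1.1 σ + slotX δ a ks w.1.2 σ w.2) / P.K
  exact Finset.measurable_sum _ fun σ _ => hterm σ

lemma bdd_gY [MeasurableSpace X] (hH : ∀ σ, Measurable fun d => H d σ) (ha : 0 ≤ a)
    (hc : ∀ d σ, |H d σ| ≤ c d) (ks : Fin T → Fin (r + 1)) (z : X × (Fin T → Fin N → ℝ)) :
    Bdd (Real.exp (c z.1 + T * (Real.sqrt δ * (N * a)))) (gY H δ a ks z) := by
  refine ⟨Real.exp_pos _, (measurable_gY hH δ a ks).of_uncurry_left, fun η => ?_⟩
  have hK : (0 : ℝ) < P.K := Nat.cast_pos.2 P.pos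
  have hcard : (Fintype.card (Conf P) : ℝ) = P.K := by
    show (Fintype.card (Fin P.K) : ℝ) = _
    rw [Fintype.card_fin]
  have hσ := fun σ => abs_le.1 ((abs_add_le (H z.1 σ)
    (slotX δ a ks z.2 σ η)).trans (add_le_add (hc _ σ) (abs_slotX_le ha ks z.2 σ η)))
  simp only [gY, slotW, ← Finset.sum_div]
  rw [← Real.exp_neg, le_div_iff₀ hK, div_le_iff₀ hK, ← hcard]
  have hl := Finset.card_nsmul_le_sum Finset.univ
    (fun σ => Real.exp (H z.1 σ + slotX δ a ks z.2 σ η)) _
    fun σ _ => Real.exp_le_exp.2 (hσ σ).1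
  have hu := Finset.sum_le_card_nsmul Finset.univ
    (fun σ => Real.exp (H z.1 σ + slotX δ a ks z.2 σ η)) _
    fun σ _ => Real.exp_le_exp.2 (hσ σ).2
  rw [nsmul_eq_mul, Finset.card_univ, mul_comm] at hl hu
  exact ⟨hl, hu⟩

/-- On a good tree the log-partition function is the logarithm of a cascade average. -/
lemma gPsi_eq (ha : 0 ≤ a) (m : Fin r → ℝ) (ks : Fin T → Fin (r + 1)) (hn : ∀ i, 0 < n i) (d : X)
    (E : Fin T → Fin N → ℝ) {t : CascTree (Fin T → Fin N → ℝ) r n} (ht : GoodTree r n t) :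
    gPsi H δ a m ks n d (E, t) = Real.log (cascMean m n (gY H δ a ks (d, E)) t) := by
  rw [gPsi, logZ]
  congr 1
  have e : ∀ σ, Real.exp (Real.log (truncV δ a m ks n (E, t) σ) + H d σ) =
      truncV δ a m ks n (E, t) σ * Real.exp (H d σ) := fun σ => by
    rw [Real.exp_add, Real.exp_log]
    exact (truncBase P δ a m ks n).pos (E, t) σ
  rw [Finset.sum_congr rfl fun σ _ => e σ]
  simp only [truncV_eq ha m ks hn E ht, cascMean, gY, slotW, cascSum_eq_sum_leaves, mul_one,
    Real.exp_add, Finset.mul_sum, Finset.sum_div, Finset.sum_mul]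
  rw [Finset.sum_comm]
  refine Finset.sum_congr rfl fun l _ => Finset.sum_congr rfl fun σ _ => ?_
  ring

lemma abs_gPsi_le (hc : ∀ d σ, |H d σ| ≤ c d) (δ a : ℝ) (m : Fin r → ℝ)
    (ks : Fin T → Fin (r + 1)) (n : Fin r → ℕ) (d : X)
    (ω : (Fin T → Fin N → ℝ) × CascTree (Fin T → Fin N → ℝ) r n) :
    |gPsi H δ a m ks n d ω| ≤
      |logZ fun _ : Conf P => (0 : ℝ)| + (truncBase P δ a m ks n).bd + c d := by
  have h1 := abs_logZ_sub_le' (fun _ : Conf P => (0 : ℝ))
    (fun σ => Real.log (truncV δ a m ks n ω σ)) ((truncBase P δ a m ks n).le_bd ω)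
  simp only [zero_add] at h1
  have h2 := abs_logZ_sub_le' (fun σ => Real.log (truncV δ a m ks n ω σ)) (H d) (hc d)
  rw [gPsi]
  linarith [abs_sub_abs_le_abs_sub (logZ fun σ => Real.log (truncV δ a m ks n ω σ) + H d σ)
      (logZ fun σ : Conf P => Real.log (truncV δ a m ks n ω σ)),
    abs_sub_abs_le_abs_sub (logZ fun σ : Conf P => Real.log (truncV δ a m ks n ω σ))
      (logZ fun _ : Conf P => (0 : ℝ))]

lemma measurable_gPsi [MeasurableSpace X] (hH : ∀ σ, Measurable fun d => H d σ) (δ a : ℝ)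
    (m : Fin r → ℝ) (ks : Fin T → Fin (r + 1)) (n : Fin r → ℕ) :
    Measurable (Function.uncurry (gPsi H δ a m ks n)) :=
  (Finset.measurable_sum _ fun σ _ =>
    ((((truncBase P δ a m ks n).meas σ).comp measurable_snd).log.add
      ((hH σ).comp measurable_fst)).exp).log

variable [MeasurableSpace X] (μd : Measure X) [IsProbabilityMeasure μd]

/-- The mean over the cascade and the energy moves little with the roots. -/
lemma gRoot (hN : N ≠ 0) (hH : ∀ σ, Measurable fun d => H d σ) (hδ : 0 ≤ δ) (ha : 0 ≤ a)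
    (m : Fin r → ℝ) (ks : Fin T → Fin (r + 1)) (hn : ∀ i, 0 < n i)
    {G : (Fin T → Fin N → ℝ) → ℝ} {b : ℝ}
    (hi : ∀ E, Integrable (fun z : CascTree (Fin T → Fin N → ℝ) r n × X =>
      gPsi H δ a m ks n z.2 (E, z.1)) ((cascLaw (slotLaw T N) r n).prod μd))
    (hGe : ∀ E, G E = ∫ z, gPsi H δ a m ks n z.2 (E, z.1)
      ∂(cascLaw (slotLaw T N) r n).prod μd)
    (hGm : Measurable G) (hGb : ∀ E, |G E| ≤ b) :
    variance G (slotLaw T N) ≤ 4 * a ^ 2 * (δ * T) * N := by
  have hvH : ∀ σ, Measurable fun w : (Fin T → Fin N → ℝ) ×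
      (CascTree (Fin T → Fin N → ℝ) r n × X) =>
        Real.log (truncV δ a m ks n (w.1, w.2.1) σ) + H w.2.2 σ := fun σ =>
    ((((truncBase P δ a m ks n).meas σ).comp
      (measurable_fst.prodMk (measurable_fst.comp measurable_snd))).log).add
      ((hH σ).comp (measurable_snd.comp measurable_snd))
  refine root_variance (P := P) ((cascLaw (slotLaw T N) r n).prod μd) hN hδ
    (H := fun E z σ => Real.log (truncV δ a m ks n (E, z.1) σ) + H z.2 σ)
    hvH hGm hGb fun E k i y => ?_
  set E' := Function.update E k (Function.update (E k) i y)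
  rw [hGe E, hGe E', ← integral_sub (hi E) (hi E')]
  set g : Conf P → ℝ := fun σ => 2 * a * Real.sqrt δ * |Vale.Agent.P157.Parisi.Sphere.Up.sv σ i|
    with hg
  refine integral_mono_ae ((hi E).sub (hi E')) (Integrable.of_bound
    ((Finset.measurable_sum _ fun σ _ => ((hvH σ).exp.div
      (Finset.measurable_sum _ fun τ _ => (hvH τ).exp)).mul_const (g σ)).comp
        (measurable_prodMk_left (x := E))).aestronglyMeasurable (∑ σ, |g σ|) ?_) ?_
  · refine ae_of_all _ fun z => Vale.Agent.P168.Limit.abs_gav_le_of_le _ fun σ => ?_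
    exact Finset.single_le_sum (f := fun τ => |g τ|) (fun τ _ => abs_nonneg _) (Finset.mem_univ σ)
  filter_upwards [Measure.quasiMeasurePreserving_fst.ae (ae_good (slotLaw T N) r n)] with z hz
  have hle := logZ_mono (H := fun σ =>
      (Real.log (truncV δ a m ks n (E, z.1) σ) + H z.2 σ) + -g σ)
    (H' := fun σ => Real.log (truncV δ a m ks n (E', z.1) σ) + H z.2 σ) fun σ => by
      have := log_truncV_update_ge (P := P) (δ := δ) ha m ks hn E k i y hz σ
      simp only [g, E']
      linarith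
  have hj := gav_le_logZ_sub'
    (fun σ => Real.log (truncV δ a m ks n (E, z.1) σ) + H z.2 σ) fun σ => -g σ
  have hneg : ∀ Hz : Conf P → ℝ, gav Hz (fun σ => -g σ) = -gav Hz g := fun Hz => by
    simp [gav, Finset.sum_neg_distrib]
  rw [hneg] at hj
  show gPsi H δ a m ks n z.2 (E, z.1) - gPsi H δ a m ks n z.2 (E', z.1) ≤
      gav (fun σ => Real.log (truncV δ a m ks n (E, z.1) σ) + H z.2 σ) g
  simp only [gPsi]
  linarith

/-- The mean absolute deviation over truncated cascades with slots, from the deviation over fixed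
weights. -/
theorem genDev (hN : N ≠ 0) (hH : ∀ σ, Measurable fun d => H d σ)
    (hc : ∀ d σ, |H d σ| ≤ c d) (hci : Integrable c μd) {V₁ : ℝ}
    (hV : ∀ v : Conf P → ℝ, ∫ d, |logZ (fun σ => v σ + H d σ) -
      ∫ d', logZ (fun σ => v σ + H d' σ) ∂μd| ∂μd ≤ V₁)
    (hδ : 0 ≤ δ) (ha : 0 ≤ a) (hm : Exps m) (ks : Fin T → Fin (r + 1)) :
    ∀ᶠ n in cascFilter r,
      ∫ d, ∫ ω, |gPsi H δ a m ks n d ω - ∫ d', ∫ ω', gPsi H δ a m ks n d' ω'
          ∂(slotLaw T N).prod (cascLaw (slotLaw T N) r n) ∂μd|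
        ∂(slotLaw T N).prod (cascLaw (slotLaw T N) r n) ∂μd ≤
        V₁ + 2 * (2 * devLim m + 1) + Real.sqrt (4 * a ^ 2 * (δ * T) * N) := by
  set M : ℝ := T * (Real.sqrt δ * (N * a))
  have hM : 0 ≤ M := by positivity
  have hc0 : ∀ d, 0 ≤ c d := fun d => (abs_nonneg _).trans (hc d default)
  have hΛ : Integrable (fun z : X × (Fin T → Fin N → ℝ) => c z.1 + M)
      (μd.prod (slotLaw T N)) := (hci.comp_fst _).add (integrable_const M)
  have hev := eventually_meanDev (slotLaw T N) (μd.prod (slotLaw T N)) hm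
    (measurable_gY (P := P) hH δ a ks) hΛ fun z =>
      ⟨_, bdd_gY hH ha hc ks z,
        by rw [Real.log_exp, abs_of_nonneg (add_nonneg (hc0 _) hM)]⟩
  filter_upwards [hev, eventually_pos r] with n hn hpos
  set K := |logZ fun _ : Conf P => (0 : ℝ)| + |(truncBase P δ a m ks n).bd| + M
  have hψb : ∀ d ω, |gPsi H δ a m ks n d ω| ≤ K + c d := fun d ω => by
    refine (abs_gPsi_le hc δ a m ks n d ω).trans ?_
    simp only [K]
    linarith [le_abs_self (truncBase P δ a m ks n).bd]
  refine dev_le_of_parts (ν := slotLaw T N) (κ := cascLaw (slotLaw T N) r n)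
    (c := fun d => K + c d)
    (lg := fun d E => Real.log (genNested (slotLaw T N) m (gY H δ a ks (d, E))))
    (ψ := fun d ω => gPsi H δ a m ks n d ω) (measurable_gPsi hH δ a m ks n)
    (Vale.Agent.P168.Upper.measurable_genNested (slotLaw T N) m _
      (measurable_gY hH δ a ks)).log ((integrable_const K).add hci) hψb (fun d E => ?_)
    (fun ω => hV fun σ => Real.log (truncV δ a m ks n ω σ))
    (fun G b hGe hGm hGb => gRoot μd hN hH hδ ha m ks hpos (fun E => ?_) hGe hGm hGb) ?_
  · have hY := bdd_gY (δ := δ) hH ha hc ks (d, E)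
    have hG := genNested_mem (slotLaw T N) hY.pos hm hY.meas hY.mem
    refine (abs_log_le hY.pos hG.1 hG.2).trans ?_
    rw [Real.log_exp, abs_of_nonneg (add_nonneg (hc0 _) hM)]
    simp only [K, M]
    linarith [abs_nonneg (logZ fun _ : Conf P => (0 : ℝ)),
      abs_nonneg (truncBase P δ a m ks n).bd]
  · exact (((integrable_const K).add hci).comp_snd _).mono'
      ((measurable_gPsi hH δ a m ks n).comp
        (measurable_snd.prodMk (measurable_const.prodMk measurable_fst))).aestronglyMeasurable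
      (ae_of_all _ fun z => hψb z.2 (E, z.1))
  · refine le_trans (le_of_eq (integral_congr_ae (ae_of_all _ fun z => ?_))) hn
    refine integral_congr_ae ((ae_good (slotLaw T N) r n).mono fun t ht => ?_)
    simp only
    rw [gPsi_eq (P := P) ha m ks hpos z.1 z.2 ht]

end Vale.Agent.P166.Haar2.SlotDev
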