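import Vale.Agent.P166.Haar2.Statements
import Vale.Agent.P166.Haar2.Basic
import Vale.Agent.P166.Haar2.SlotDev.Generic

/-!
The free energy of perturbed systems in Haar position over truncated cascades with slots
concentrates, given the concentration over fixed weights.
-/

noncomputable section

open MeasureTheory ProbabilityTheory Filter
open scoped BigOperators Matrix

namespace Vale.Agent.P166.Haar2

open Vale.Agent.P157 (gam)
open Vale.Agent.P157.Parisi (Cube scale)
open Vale.Agent.P157.Parisi.Full (cubePts)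
open Vale.Agent.P168 (cascFilter)
open Vale.Agent.P168.Cascade (Exps)
open Vale.Agent.P168.Limit (logZ)

namespace SlotDev

variable {N G L : ℕ}

/-- A base with fixed weights. -/
def pointBase (w : Cube N → ℝ) : RBase N where
  Ω := Unit
  mΩ := inferInstance
  law := Measure.dirac ()
  lw _ σ := w σ
  prob := inferInstance
  meas _ := measurable_const
  bd := ∑ σ, |w σ|
  le_bd _ σ := Finset.single_le_sum (f := fun τ => |w τ|) (fun _ _ => abs_nonneg _)
    (Finset.mem_univ σ)

/-- Concentration over fixed weights. -/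
def PointDevStmt : Prop :=
  ∀ (G : ℕ) (C₀ : ℝ), ∃ C : ℝ, ∀ (N L : ℕ) (P : Sys N G), 0 < N → (∀ i, |P.lam i| ≤ C₀) →
    (N : ℝ) ≤ P.ν → ∀ x : Fin L → ℝ, (∀ i, |x i| ≤ C₀) → ∀ w : Cube N → ℝ,
      P.dev (scale N) x (pointBase w) ≤ C * devRate N

/-- A bound of the energy, integrable in the disorder. -/
def ham0Bd (P : Sys N G) (s : ℝ) (x : Fin L → ℝ) (d : OG N × (PIdx G N L → ℝ)) : ℝ :=
  (1 / 2 * ∑ i, |P.lam i| * N) + ∑ c, |d.2 c| * (|s * x c.1 * coef G c.1.val| * featBd P c)

lemma abs_ham0_le (P : Sys N G) (s : ℝ) (x : Fin L → ℝ) (d : OG N × (PIdx G N L → ℝ))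
    (σ : Cube N) : |P.ham0 s x d.1 d.2 σ| ≤ ham0Bd P s x d := by
  rw [Sys.ham0, ham0Bd]
  refine (abs_add_le _ _).trans (add_le_add ?_ (abs_pert_le P s x d.1 d.2 σ))
  rw [abs_mul, abs_of_pos (by norm_num : (0 : ℝ) < 1 / 2)]
  exact mul_le_mul_of_nonneg_left (abs_quad_le P d.1 σ) (by norm_num)

lemma integrable_ham0Bd (P : Sys N G) (s : ℝ) (x : Fin L → ℝ) :
    Integrable (ham0Bd P s x) ((orthHaar N).prod (gam (PIdx G N L))) :=
  (integrable_const _).add ((integrable_finsetSum _ fun c _ =>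
    (Vale.Agent.P168.Toolkit.integrable_eval_gaussPi c).abs.mul_const _).comp_snd (orthHaar N))

/-- The deviation, with the disorder and the base separated. -/
lemma dev_eq (P : Sys N G) (s : ℝ) (x : Fin L → ℝ) (B : RBase N) :
    P.dev s x B = ∫ d, ∫ ω, |logZ (P.ham s x B (d.1, d.2, ω)) -
      ∫ d', ∫ ω', logZ (P.ham s x B (d'.1, d'.2, ω')) ∂B.law
        ∂(orthHaar N).prod (gam (PIdx G N L))| ∂B.law ∂(orthHaar N).prod (gam (PIdx G N L)) := by
  have key : ∀ g : Dz G L B → ℝ, Integrable g (dzLaw G L B) → ∫ z, g z ∂dzLaw G L B =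
      ∫ d, ∫ ω, g (d.1, d.2, ω) ∂B.law ∂(orthHaar N).prod (gam (PIdx G N L)) := fun g hg => by
    have hmp := measurePreserving_prodAssoc (orthHaar N) (gam (PIdx G N L)) B.law
    rw [dzLaw, ← hmp.integral_comp' g,
      integral_prod (fun z => g (MeasurableEquiv.prodAssoc z))
        (hmp.integrable_comp_of_integrable hg)]
    rfl
  have hi := integrable_logZ P s x B
  have e : P.free s x B = ∫ d, ∫ ω, logZ (P.ham s x B (d.1, d.2, ω)) ∂B.law
      ∂(orthHaar N).prod (gam (PIdx G N L)) := key _ hi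
  rw [Sys.dev, ← e]
  exact key (fun z => |logZ (P.ham s x B z) - P.free s x B|)
    (hi.sub (integrable_const _)).abs

lemma logZ_conf (F : Vale.Agent.P157.Parisi.Sphere.Conf (cubePts N) → ℝ) :
    logZ (fun σ : Cube N => F (toConf σ)) = logZ F := by
  simp only [logZ]
  congr 1
  exact Equiv.sum_comp (Fintype.equivFin (Cube N))
    (fun k : Fin (Fintype.card (Cube N)) => Real.exp (F k))

lemma ofConf_toConf (σ : Cube N) : ofConf (toConf σ) = σ := (Fintype.equivFin _).symm_apply_apply σ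

lemma toConf_ofConf (k : Vale.Agent.P157.Parisi.Sphere.Conf (cubePts N)) : toConf (ofConf k) = k :=
  (Fintype.equivFin _).apply_symm_apply k

lemma logZ_ham_slotBase {r T : ℕ} (P : Sys N G) (s : ℝ) (x : Fin L → ℝ) (δ a : ℝ) (m : Fin r → ℝ)
    (ks : Fin T → Fin (r + 1)) (n : Fin r → ℕ) (d : OG N × (PIdx G N L → ℝ))
    (ω : (slotBase N δ a m ks n).Ω) :
    logZ (P.ham s x (slotBase N δ a m ks n) (d.1, d.2, ω)) =
      gPsi (P := cubePts N) (fun d k => P.ham0 s x d.1 d.2 (ofConf k)) δ a m ks n d ω := by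
  refine Eq.trans ?_ (logZ_conf fun k =>
    Real.log (Vale.Agent.P157.Parisi.Full.truncV δ a m ks n ω k) + P.ham0 s x d.1 d.2 (ofConf k))
  simp only [ofConf_toConf]
  rfl

/-- Concentration over truncated cascades follows from concentration over fixed weights. -/
theorem slotDev_of_point (h : PointDevStmt) : SlotDevStmt := by
  intro r m hm G C₀ R a ha
  obtain ⟨C, hC⟩ := h G C₀
  have hL := Vale.Agent.P157.Parisi.Full.Conc.devLim_nonneg hm
  refine ⟨|C| + 2 * (2 * Vale.Agent.P157.Parisi.Full.Conc.devLim m + 1) + 2 * a * Real.sqrt |R|,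
    fun N L T P hN hlam hν δ hδ hR ks x hx => ?_⟩
  set μd := (orthHaar N).prod (gam (PIdx G N L))
  set H : OG N × (PIdx G N L → ℝ) → Vale.Agent.P157.Parisi.Sphere.Conf (cubePts N) → ℝ :=
    fun d k => P.ham0 (scale N) x d.1 d.2 (ofConf k)
  have hV : ∀ v : Vale.Agent.P157.Parisi.Sphere.Conf (cubePts N) → ℝ,
      ∫ d, |logZ (fun k => v k + H d k) - ∫ d', logZ (fun k => v k + H d' k) ∂μd| ∂μd ≤
        C * devRate N := by
    intro v
    refine le_of_eq_of_le ?_ (hC N L P hN hlam hν x hx fun σ => v (toConf σ))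
    rw [dev_eq P]
    have e : ∀ d : OG N × (PIdx G N L → ℝ), logZ (fun k => v k + H d k) =
        logZ (P.ham (scale N) x (pointBase fun σ => v (toConf σ)) (d.1, d.2, ())) := fun d => by
      rw [← logZ_conf]
      simp only [H, ofConf_toConf]
      rfl
    simp only [e]
    have hd : ∀ f : (pointBase fun σ => v (toConf σ)).Ω → ℝ,
        ∫ ω, f ω ∂(pointBase fun σ => v (toConf σ)).law = f () := fun f =>
      MeasureTheory.integral_dirac (α := Unit) f ()
    simp only [hd]
    rfl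
  have hev := genDev (P := cubePts N) μd hN.ne' (H := H)
    (fun k => measurable_ham0 P (scale N) x (ofConf k))
    (c := ham0Bd P (scale N) x) (fun d k => abs_ham0_le P _ x d _)
    (integrable_ham0Bd P _ x) hV hδ ha hm ks
  filter_upwards [hev] with n hn
  rw [dev_eq P]
  simp only [logZ_ham_slotBase]
  refine le_trans hn ?_
  have hsc : 0 ≤ scale N := by unfold scale; positivity
  have h1 : 1 ≤ devRate N := by
    unfold devRate; linarith [Real.sqrt_nonneg (N * (1 + Real.log N) : ℝ)]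
  have hN1 : Real.sqrt N ≤ devRate N := by
    have hl : 0 ≤ Real.log (N : ℝ) := Real.log_natCast_nonneg N
    have h2 : Real.sqrt N ≤ Real.sqrt (N * (1 + Real.log N)) :=
      Real.sqrt_le_sqrt (by nlinarith [mul_nonneg (Nat.cast_nonneg N : (0 : ℝ) ≤ N) hl])
    unfold devRate; linarith
  have e2 : Real.sqrt (4 * a ^ 2 * (δ * T) * N) ≤ 2 * a * Real.sqrt |R| * Real.sqrt N := by
    refine Real.sqrt_le_iff.2 ⟨by positivity, ?_⟩
    rw [mul_pow, mul_pow, Real.sq_sqrt (abs_nonneg R), Real.sq_sqrt (Nat.cast_nonneg N)]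
    calc 4 * a ^ 2 * (δ * T) * N ≤ 4 * a ^ 2 * |R| * N := by
          gcongr; exact hR.trans (le_abs_self R)
      _ = _ := by ring
  have e3 : Real.sqrt (4 * a ^ 2 * (δ * T) * N) ≤ 2 * a * Real.sqrt |R| * devRate N :=
    e2.trans (mul_le_mul_of_nonneg_left hN1 (by positivity))
  have e4 : C * devRate N ≤ |C| * devRate N :=
    mul_le_mul_of_nonneg_right (le_abs_self C) (zero_le_one.trans h1)
  nlinarith [mul_le_mul_of_nonneg_left h1
    (by positivity : 0 ≤ 2 * (2 * Vale.Agent.P157.Parisi.Full.Conc.devLim m + 1))]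

end SlotDev

end Vale.Agent.P166.Haar2
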