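import Vale.Agent.P166.Haar2.SlotDev.Main
import Vale.Agent.P166.Haar2.Dev.Main

/-!
Concentration over truncated cascades with slots.
-/

noncomputable section

namespace Vale.Agent.P166.Haar2

/-- The free energy over truncated cascades with slots concentrates. -/
theorem slotDev : SlotDevStmt :=
  SlotDev.slotDev_of_point pointDev

end Vale.Agent.P166.Haar2
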